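import Vale.Agent.P067.Alld.Van.FrameDefs

/-!
P067, part I-b: transvections move a pair of a vector and a functional to a standard one; hence
frames are transitively permuted and stabilisers of standard pairs are generated by transvections.
-/

namespace Vale.Agent.P067.Alld.Van

open Finset Matrix

variable {R S : Type} [CommRing R] [CommRing S] {n : ℕ}

theorem FPair.ext' {w w' : FPair R n} (h1 : w.1.1 = w'.1.1) (h2 : w.1.2 = w'.1.2) : w = w' :=
  Subtype.ext (Prod.ext h1 h2)

theorem smul_vec (g : SpecialLinearGroup (Fin n) R) (w : FPair R n) :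
    (g • w).1.1 = g.1 *ᵥ w.1.1 := rfl

theorem smul_fun (g : SpecialLinearGroup (Fin n) R) (w : FPair R n) :
    (g • w).1.2 = w.1.2 ᵥ* (g⁻¹).1 := rfl

theorem orth_smul (g : SpecialLinearGroup (Fin n) R) (w w' : FPair R n) :
    Orth (g • w) (g • w') ↔ Orth w w' := by
  unfold Orth
  rw [smul_vec, smul_fun, ← dotProduct_mulVec, mulVec_mulVec,
    show (g⁻¹).1 * g.1 = 1 from congrArg Subtype.val (inv_mul_cancel g), one_mulVec]

theorem orth_stdPair_left (i : Fin n) (w : FPair R n) : Orth (stdPair R i) w ↔ w.1.1 i = 0 := by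
  simp [Orth, stdPair]

theorem orth_stdPair_right (i : Fin n) (w : FPair R n) : Orth w (stdPair R i) ↔ w.1.2 i = 0 := by
  simp [Orth, stdPair]

theorem orth_stdPair {i j : Fin n} (h : i ≠ j) : Orth (stdPair R i) (stdPair R j) := by
  simp [Orth, stdPair, h]

theorem transvection_vec {a b : Fin n} (h : a ≠ b) (x : R) (w : FPair R n) (c : Fin n) :
    (SpecialLinearGroup.transvection h x • w).1.1 c =
      w.1.1 c + if c = a then x * w.1.1 b else 0 := by
  rw [smul_vec, SpecialLinearGroup.transvection_coe, add_mulVec, one_mulVec, Pi.add_apply,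
    single_mulVec]
  rcases eq_or_ne c a with rfl | hc
  · rw [if_pos rfl, Function.update_self]
  · rw [if_neg hc, Function.update_of_ne hc, Pi.zero_apply]

theorem transvection_fun {a b : Fin n} (h : a ≠ b) (x : R) (w : FPair R n) (c : Fin n) :
    (SpecialLinearGroup.transvection h x • w).1.2 c =
      w.1.2 c + if c = b then -(w.1.2 a * x) else 0 := by
  rw [smul_fun, SpecialLinearGroup.transvection_inv, SpecialLinearGroup.transvection_coe, vecMul_add,
    vecMul_one, Pi.add_apply]
  simp only [vecMul, dotProduct, single_apply]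
  rw [sum_eq_single a (fun k _ hk => by simp [Ne.symm hk]) (by simp)]
  rcases eq_or_ne c b with rfl | hc
  · rw [if_pos rfl, if_pos ⟨rfl, rfl⟩, mul_neg]
  · rw [if_neg hc, if_neg (fun e => hc e.2.symm), mul_zero]

/-- The subgroup generated by the transvections inside `J`. -/
def tvGroup (R : Type) [CommRing R] (J : Finset (Fin n)) :
    Subgroup (SpecialLinearGroup (Fin n) R) :=
  Subgroup.closure {g | ∃ (a b : Fin n) (h : a ≠ b) (x : R),
    a ∈ J ∧ b ∈ J ∧ g = SpecialLinearGroup.transvection h x}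

theorem transvection_mem {J : Finset (Fin n)} {a b : Fin n} (h : a ≠ b) (x : R) (ha : a ∈ J)
    (hb : b ∈ J) : SpecialLinearGroup.transvection h x ∈ tvGroup R J :=
  Subgroup.subset_closure ⟨a, b, h, x, ha, hb, rfl⟩

theorem tvGroup_mono {J J' : Finset (Fin n)} (h : J ⊆ J') : tvGroup R J ≤ tvGroup R J' :=
  Subgroup.closure_mono fun _ ⟨a, b, hab, x, ha, hb, e⟩ => ⟨a, b, hab, x, h ha, h hb, e⟩

variable (R) in
/-- The elements fixing the standard pairs outside `J`. -/
def fixGroup (J : Finset (Fin n)) : Subgroup (SpecialLinearGroup (Fin n) R) :=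
  ⨅ k ∈ Jᶜ, MulAction.stabilizer (SpecialLinearGroup (Fin n) R) (stdPair R k)

theorem mem_fixGroup {J : Finset (Fin n)} {g : SpecialLinearGroup (Fin n) R} :
    g ∈ fixGroup R J ↔ ∀ k ∉ J, g • stdPair R k = stdPair R k := by
  simp [fixGroup, Subgroup.mem_iInf, MulAction.mem_stabilizer_iff]

theorem tvGroup_le_fix (J : Finset (Fin n)) : tvGroup R J ≤ fixGroup R J := by
  refine (Subgroup.closure_le _).2 ?_
  rintro _ ⟨a, b, h, x, ha, hb, rfl⟩
  refine mem_fixGroup.2 fun k hk => FPair.ext' (funext fun c => ?_) (funext fun c => ?_)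
  · rw [transvection_vec]
    simp [stdPair, show b ≠ k from fun e => hk (e ▸ hb)]
  · rw [transvection_fun]
    simp [stdPair, show a ≠ k from fun e => hk (e ▸ ha)]

/-- The pair lives on `J`. -/
def SuppOn (J : Finset (Fin n)) (w : FPair R n) : Prop :=
  ∀ k ∉ J, w.1.1 k = 0 ∧ w.1.2 k = 0

theorem suppOn_iff {J : Finset (Fin n)} {w : FPair R n} :
    SuppOn J w ↔ ∀ k ∉ J, Orth (stdPair R k) w ∧ Orth w (stdPair R k) := by
  simp [SuppOn, orth_stdPair_left, orth_stdPair_right]

theorem SuppOn.smul {J : Finset (Fin n)} {w : FPair R n} (h : SuppOn J w)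
    {g : SpecialLinearGroup (Fin n) R} (hg : g ∈ fixGroup R J) : SuppOn J (g • w) :=
  suppOn_iff.2 fun k hk => by
    rw [← mem_fixGroup.1 hg k hk, orth_smul, orth_smul]
    exact suppOn_iff.1 h k hk

theorem SuppOn.sum_eq {J : Finset (Fin n)} {w : FPair R n} (h : SuppOn J w) :
    ∑ a ∈ J, w.1.2 a * w.1.1 a = 1 :=
  (sum_subset (subset_univ J) fun a _ ha => by rw [(h a ha).1, mul_zero]).trans w.2

variable (R n) in
/-- Transvections can give a pair a unit coordinate. -/
def Red : Prop :=
  ∀ (J : Finset (Fin n)) (w : FPair R n), SuppOn J w →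
    ∃ g ∈ tvGroup R J, ∃ i ∈ J, IsUnit ((g • w).1.1 i)

theorem exists_clear_vec {J : Finset (Fin n)} {j : Fin n} (hj : j ∈ J) :
    ∀ S ⊆ J.erase j, ∀ w : FPair R n, w.1.1 j = 1 → ∃ g ∈ tvGroup R J,
      (g • w).1.1 j = 1 ∧ (∀ a ∈ S, (g • w).1.1 a = 0) ∧ ∀ a ∉ S, (g • w).1.1 a = w.1.1 a := by
  intro S
  induction S using Finset.induction_on with
  | empty => exact fun _ w hw => ⟨1, one_mem _, by simpa using hw, by simp, by simp⟩
  | @insert a S ha ih =>
    intro hS w hw
    obtain ⟨g, hg, h1, h2, h3⟩ := ih ((subset_insert _ _).trans hS) w hw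
    obtain ⟨haj, haJ⟩ := mem_erase.1 (hS (mem_insert_self a S))
    refine ⟨SpecialLinearGroup.transvection haj (-(g • w).1.1 a) * g,
      mul_mem (transvection_mem _ _ haJ hj) hg, ?_, fun c hc => ?_, fun c hc => ?_⟩
    · rw [mul_smul, transvection_vec, if_neg haj.symm, add_zero, h1]
    · rw [mul_smul, transvection_vec]
      rcases mem_insert.1 hc with rfl | hc
      · rw [if_pos rfl, h1, mul_one, add_neg_cancel]
      · rw [if_neg (fun e : c = a => ha (e ▸ hc)), add_zero, h2 c hc]
    · rw [mem_insert, not_or] at hc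
      rw [mul_smul, transvection_vec, if_neg hc.1, add_zero, h3 c hc.2]

theorem exists_clear_fun {J : Finset (Fin n)} {j : Fin n} (hj : j ∈ J) :
    ∀ S ⊆ J.erase j, ∀ w : FPair R n, w.1.1 = Pi.single j 1 → w.1.2 j = 1 → ∃ g ∈ tvGroup R J,
      (g • w).1.1 = Pi.single j 1 ∧ (g • w).1.2 j = 1 ∧ (∀ a ∈ S, (g • w).1.2 a = 0) ∧
        ∀ a ∉ S, (g • w).1.2 a = w.1.2 a := by
  intro S
  induction S using Finset.induction_on with
  | empty => exact fun _ w hw hw' => ⟨1, one_mem _, by simpa using hw, by simpa using hw', by simp,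
      by simp⟩
  | @insert a S ha ih =>
    intro hS w hw hw'
    obtain ⟨g, hg, h0, h1, h2, h3⟩ := ih ((subset_insert _ _).trans hS) w hw hw'
    obtain ⟨haj, haJ⟩ := mem_erase.1 (hS (mem_insert_self a S))
    refine ⟨SpecialLinearGroup.transvection haj.symm ((g • w).1.2 a) * g,
      mul_mem (transvection_mem _ _ hj haJ) hg, funext fun c => ?_, ?_, fun c hc => ?_,
      fun c hc => ?_⟩
    · rw [mul_smul, transvection_vec, h0]
      simp [haj]
    · rw [mul_smul, transvection_fun, if_neg haj.symm, add_zero, h1]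
    · rw [mul_smul, transvection_fun]
      rcases mem_insert.1 hc with rfl | hc
      · rw [if_pos rfl, h1, one_mul, add_neg_cancel]
      · rw [if_neg (fun e : c = a => ha (e ▸ hc)), add_zero, h2 c hc]
    · rw [mem_insert, not_or] at hc
      rw [mul_smul, transvection_fun, if_neg hc.1, add_zero, h3 c hc.2]

/-- Transvections move a pair to a standard one. -/
theorem exists_to_std (hR : Red R n) {J : Finset (Fin n)} (hJ : 2 ≤ J.card) {j : Fin n} (hj : j ∈ J)
    {w : FPair R n} (hw : SuppOn J w) : ∃ g ∈ tvGroup R J, g • w = stdPair R j := by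
  obtain ⟨g₁, hg₁, i, hi, hu⟩ := hR J w hw
  have hone : ∀ w : FPair R n, ∀ i ∈ J, i ≠ j → IsUnit (w.1.1 i) →
      ∃ g ∈ tvGroup R J, (g • w).1.1 j = 1 := by
    intro w i hi hij hu
    obtain ⟨u, hu⟩ := hu
    refine ⟨SpecialLinearGroup.transvection hij.symm ((1 - w.1.1 j) * ↑u⁻¹),
      transvection_mem _ _ hj hi, ?_⟩
    rw [transvection_vec, if_pos rfl, ← hu, mul_assoc, Units.inv_mul, mul_one]
    ring
  obtain ⟨g₂, hg₂, h2⟩ : ∃ g ∈ tvGroup R J, (g • g₁ • w).1.1 j = 1 := by
    rcases ne_or_eq i j with hij | rfl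
    · exact hone _ i hi hij hu
    · obtain ⟨b, hb, hbi⟩ := exists_mem_ne (s := J) (by omega) i
      obtain ⟨u, hu⟩ := hu
      let t₀ : SpecialLinearGroup (Fin n) R :=
        SpecialLinearGroup.transvection hbi ((1 - (g₁ • w).1.1 b) * ↑u⁻¹)
      have hb1 : (t₀ • g₁ • w).1.1 b = 1 := by
        rw [transvection_vec, if_pos rfl, ← hu, mul_assoc, Units.inv_mul, mul_one]
        ring
      obtain ⟨g, hg, h⟩ := hone (t₀ • g₁ • w) b hb hbi (by rw [hb1]; exact isUnit_one)
      exact ⟨g * t₀, mul_mem hg (transvection_mem _ _ hb hi), by rw [mul_smul]; exact h⟩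
  obtain ⟨g₃, hg₃, h3, h4, -⟩ := exists_clear_vec hj (J.erase j) subset_rfl _ h2
  have hs3 : SuppOn J (g₃ • g₂ • g₁ • w) := ((hw.smul (tvGroup_le_fix J hg₁)).smul
    (tvGroup_le_fix J hg₂)).smul (tvGroup_le_fix J hg₃)
  generalize hw' : g₃ • g₂ • g₁ • w = w' at h3 h4 hs3
  have hvec : w'.1.1 = Pi.single j 1 := funext fun c => by
    rcases eq_or_ne c j with rfl | hc
    · simp [h3]
    · by_cases hcJ : c ∈ J
      · simp [h4 c (mem_erase.2 ⟨hc, hcJ⟩), hc]
      · simp [(hs3 c hcJ).1, hc]
  have hfun : w'.1.2 j = 1 := by simpa [hvec] using w'.2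
  obtain ⟨g₄, hg₄, h5, h6, h7, -⟩ := exists_clear_fun hj (J.erase j) subset_rfl _ hvec hfun
  have hs4 : SuppOn J (g₄ • w') := hs3.smul (tvGroup_le_fix J hg₄)
  refine ⟨g₄ * (g₃ * (g₂ * g₁)), mul_mem hg₄ (mul_mem hg₃ (mul_mem hg₂ hg₁)), ?_⟩
  rw [mul_smul, mul_smul, mul_smul, hw']
  refine FPair.ext' h5 (funext fun c => ?_)
  rcases eq_or_ne c j with rfl | hc
  · simp [stdPair, h6]
  · by_cases hcJ : c ∈ J
    · simp [stdPair, h7 c (mem_erase.2 ⟨hc, hcJ⟩), hc]
    · simp [stdPair, (hs4 c hcJ).2, hc]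

/-- Pairwise orthogonal pairs come from standard ones by transvections. -/
theorem exists_of_orth (hR : Red R n) (I : Finset (Fin n)) :
    ∀ f : Fin n → FPair R n, I.card + 1 ≤ n → (∀ i ∈ I, ∀ i' ∈ I, i ≠ i' → Orth (f i) (f i')) →
      ∃ g ∈ tvGroup R (univ : Finset (Fin n)), ∀ i ∈ I, g • stdPair R i = f i := by
  induction I using Finset.induction_on with
  | empty => exact fun _ _ _ => ⟨(1 : SpecialLinearGroup (Fin n) R), one_mem _, fun i hi => absurd hi (notMem_empty i)⟩
  | @insert i I hi ih =>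
    intro f hc horth
    rw [card_insert_of_notMem hi] at hc
    obtain ⟨g, hg, hgI⟩ := ih f (by omega) fun a ha a' ha' => horth a (mem_insert_of_mem ha) a'
      (mem_insert_of_mem ha')
    have hsupp : SuppOn Iᶜ (g⁻¹ • f i) := suppOn_iff.2 fun k hk => by
      have hk : k ∈ I := by simpa using hk
      have hne : k ≠ i := fun e => hi (e ▸ hk)
      rw [← inv_smul_smul g (stdPair R k), hgI k hk, orth_smul, orth_smul]
      exact ⟨horth k (mem_insert_of_mem hk) i (mem_insert_self i I) hne,
        horth i (mem_insert_self i I) k (mem_insert_of_mem hk) hne.symm⟩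
    obtain ⟨h, hh, hh'⟩ := exists_to_std hR (J := Iᶜ) (by rw [card_compl, Fintype.card_fin]; omega)
      (mem_compl.2 hi) hsupp
    refine ⟨g * h⁻¹, mul_mem hg (inv_mem (tvGroup_mono (subset_univ _) hh)), fun a ha => ?_⟩
    rcases mem_insert.1 ha with rfl | ha
    · rw [mul_smul, ← hh', inv_smul_smul, smul_inv_smul]
    · rw [mul_smul, mem_fixGroup.1 (inv_mem (tvGroup_le_fix _ hh)) a (by simpa using ha), hgI a ha]

theorem row_eq_of_smul_stdPair {g : SpecialLinearGroup (Fin n) R} {k : Fin n}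
    (h : g • stdPair R k = stdPair R k) :
    (∀ c, g.1 c k = if c = k then 1 else 0) ∧ ∀ c, g.1 k c = if k = c then 1 else 0 := by
  refine ⟨fun c => ?_, fun c => ?_⟩
  · have := congrArg (fun w : FPair R n => w.1.1 c) h
    simp only [smul_vec] at this
    simpa [stdPair, Pi.single_apply] using this
  · have e : (stdPair R k).1.2 ᵥ* g.1 = (stdPair R k).1.2 := by
      conv_lhs => rw [← h]
      rw [smul_fun, vecMul_vecMul,
        show (g⁻¹).1 * g.1 = 1 from congrArg Subtype.val (inv_mul_cancel g), vecMul_one]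
    have := congrFun e c
    simpa [stdPair, Pi.single_apply, eq_comm (a := c)] using this

/-- The stabiliser of the standard pairs outside `J` is generated by transvections inside `J`. -/
theorem fix_le_tvGroup (hR : Red R n) (J : Finset (Fin n)) : fixGroup R J ≤ tvGroup R J := by
  induction J using Finset.strongInduction with
  | H J ih =>
  intro g hg
  rcases Nat.lt_or_ge J.card 2 with hJ | hJ
  · suffices g = 1 from this ▸ one_mem _
    have hdiag : ∀ a c, a ≠ c → g.1 a c = 0 := fun a c hac => by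
      by_cases ha : a ∈ J
      · have hc : c ∉ J := fun hc => hac (card_le_one.1 (by omega) a ha c hc)
        rw [(row_eq_of_smul_stdPair (mem_fixGroup.1 hg c hc)).1 a, if_neg hac]
      · rw [(row_eq_of_smul_stdPair (mem_fixGroup.1 hg a ha)).2 c, if_neg hac]
    have hd : g.1 = diagonal fun a => g.1 a a := by
      ext a c
      rcases eq_or_ne a c with rfl | hac
      · simp
      · simp [hdiag a c hac, hac]
    have hone : ∀ a ∉ J, g.1 a a = 1 := fun a ha => by
      rw [(row_eq_of_smul_stdPair (mem_fixGroup.1 hg a ha)).1 a, if_pos rfl]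
    refine Subtype.ext (hd.trans ?_)
    have hdet := g.2
    rw [hd, det_diagonal] at hdet
    refine Eq.trans ?_ ((diagonal_one (n := Fin n) (α := R)).trans (Matrix.SpecialLinearGroup.coe_one (R := R)).symm)
    congr 1
    funext a
    by_cases ha : a ∈ J
    · rwa [prod_eq_single a (fun c _ hca => hone c fun hc => hca (card_le_one.1 (by omega) c hc a ha))
        (by simp)] at hdet
    · exact hone a ha
  · obtain ⟨j, hj⟩ := card_pos.1 (by omega : 0 < J.card)
    have hstd : SuppOn J (stdPair R j) := fun k hk => by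
      have : k ≠ j := fun e => hk (e ▸ hj)
      simp [stdPair, this]
    obtain ⟨h, hh, hh'⟩ := exists_to_std hR hJ hj (hstd.smul hg)
    have h2 : h * g ∈ fixGroup R (J.erase j) := mem_fixGroup.2 fun k hk => by
      rw [mem_erase, not_and_or, not_not] at hk
      rcases hk with rfl | hk
      · rw [mul_smul, hh']
      · exact mem_fixGroup.1 (mul_mem (tvGroup_le_fix J hh) hg) k hk
    have := mul_mem (inv_mem hh) (tvGroup_mono (erase_subset j J) (ih _ (erase_ssubset hj) h2))
    rwa [inv_mul_cancel_left] at this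

section Frame

variable {b : ℕ}

theorem stdPair_injective [Nontrivial R] : Function.Injective (stdPair R (n := n)) := fun i j h => by
  by_contra hne
  have := congrFun (congrArg (fun w : FPair R n => w.1.1) h) i
  simp [stdPair, hne] at this

theorem card_stdIdx (hb : b ≤ n) :
    (univ.filter fun i : Fin n => n - b ≤ (i : ℕ)).card = b := by
  classical
  have h : (univ.filter fun i : Fin n => n - b ≤ (i : ℕ)).map Fin.valEmbedding = Finset.Ico (n - b) n := by
    ext i
    simp only [mem_map, mem_filter, mem_univ, true_and, Fin.valEmbedding_apply, mem_Ico]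
    exact ⟨fun ⟨j, hj, e⟩ => e ▸ ⟨hj, j.isLt⟩, fun ⟨h1, h2⟩ => ⟨⟨i, h2⟩, h1, rfl⟩⟩
  rw [← card_map Fin.valEmbedding, h, Nat.card_Ico]
  omega

theorem isFrame_stdFrame (hb : b ≤ n - 1) : IsFrame (stdFrame R n b) := by
  refine ⟨card_image_le.trans ((card_stdIdx (by omega)).le.trans hb), fun w hw w' hw' hne => ?_⟩
  obtain ⟨i, -, rfl⟩ := mem_image.1 hw
  obtain ⟨j, -, rfl⟩ := mem_image.1 hw'
  exact orth_stdPair fun e => hne (by rw [e])

/-- Frames come from standard frames by transvections. -/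
theorem exists_frame_image [Nontrivial R] (hR : Red R n) {σ : Finset (FPair R n)} (hσ : IsFrame σ)
    (hb : σ.card = b) :
    ∃ g ∈ tvGroup R (univ : Finset (Fin n)), σ = (stdFrame R n b).image (g • ·) := by
  classical
  rcases Nat.eq_zero_or_pos n with rfl | hn
  · refine ⟨1, one_mem _, ?_⟩
    have hb0 : b = 0 := by have := hσ.1; omega
    rw [card_eq_zero.1 (hb.trans hb0), stdFrame]
    simp
  have hbn : b + 1 ≤ n := by have := hσ.1; omega
  let I : Finset (Fin n) := univ.filter fun i : Fin n => n - b ≤ (i : ℕ)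
  have hI : I.card = b := card_stdIdx (by omega)
  let e : {i // i ∈ I} ≃ {w // w ∈ σ} :=
    Fintype.equivOfCardEq (by rw [Fintype.card_coe, Fintype.card_coe, hI, hb])
  let f : Fin n → FPair R n := fun i => if h : i ∈ I then (e ⟨i, h⟩).1 else stdPair R i
  have hf : ∀ i (h : i ∈ I), f i = (e ⟨i, h⟩).1 := fun i h => dif_pos h
  obtain ⟨g, hg, hgI⟩ := exists_of_orth hR I f (by omega) fun i hi i' hi' hne => by
    rw [hf i hi, hf i' hi']
    exact hσ.2 _ (e _).2 _ (e _).2 fun h => hne (congrArg Subtype.val (e.injective (Subtype.ext h)))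
  refine ⟨g, hg, Finset.ext fun w => ?_⟩
  rw [stdFrame, image_image, mem_image]
  refine ⟨fun hw => ⟨(e.symm ⟨w, hw⟩).1, (e.symm ⟨w, hw⟩).2, ?_⟩, fun ⟨i, hi, e'⟩ => ?_⟩
  · simp [hgI _ (e.symm ⟨w, hw⟩).2, hf _ (e.symm ⟨w, hw⟩).2]
  · rw [← e', Function.comp_apply, hgI i hi, hf i hi]
    exact (e _).2

theorem blk_coe {k : ℕ} (hk : k ≤ n) (h : SpecialLinearGroup (Fin k) R) :
    (blk hk h).1 = (fromBlocks h.1 0 0 1).submatrix (blkEquiv hk).symm (blkEquiv hk).symm := rfl

theorem blk_smul_stdPair {k : ℕ} (hk : k ≤ n) (h : SpecialLinearGroup (Fin k) R) {i : Fin n}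
    (hi : k ≤ (i : ℕ)) : blk hk h • stdPair R i = stdPair R i := by
  obtain ⟨j, rfl⟩ : ∃ j, blkEquiv hk (Sum.inr j) = i :=
    ⟨⟨(i : ℕ) - k, by omega⟩, Fin.ext (by simp [blkEquiv]; omega)⟩
  have hinv : (blk hk h)⁻¹ = blk hk h⁻¹ := (map_inv _ _).symm
  refine FPair.ext' (funext fun c => ?_) (funext fun c => ?_)
  · rw [smul_vec, blk_coe]
    obtain ⟨u, rfl⟩ := (blkEquiv hk).surjective c
    rcases u with a | a <;> simp [stdPair, Matrix.one_apply, Pi.single_apply]
  · rw [smul_fun, hinv, blk_coe]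
    obtain ⟨u, rfl⟩ := (blkEquiv hk).surjective c
    rcases u with a | a <;> simp [stdPair, Matrix.one_apply, Pi.single_apply, eq_comm]

theorem exists_blk {k : ℕ} (hk : k ≤ n) {g : SpecialLinearGroup (Fin n) R}
    (hg : ∀ i : Fin n, k ≤ (i : ℕ) → g • stdPair R i = stdPair R i) : ∃ h, g = blk hk h := by
  set c := g.1.submatrix (blkEquiv hk) (blkEquiv hk) with hc
  have hrow : ∀ j u, c (Sum.inr j) u = (1 : Matrix (Fin k ⊕ Fin (n - k)) (Fin k ⊕ Fin (n - k)) R)
      (Sum.inr j) u ∧ c u (Sum.inr j) = (1 : Matrix (Fin k ⊕ Fin (n - k)) (Fin k ⊕ Fin (n - k)) R)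
      u (Sum.inr j) := fun j u => by
    have h := row_eq_of_smul_stdPair (hg (blkEquiv hk (Sum.inr j)) (by simp [blkEquiv]))
    simp only [hc, Matrix.submatrix_apply, h.1, h.2, Equiv.apply_eq_iff_eq, Matrix.one_apply]
    exact ⟨trivial, trivial⟩
  have hblocks : c = fromBlocks c.toBlocks₁₁ 0 0 1 := by
    ext u v
    rcases u with a | a <;> rcases v with d | d
    · rfl
    · simpa using (hrow d (Sum.inl a)).2
    · simpa using (hrow a (Sum.inl d)).1
    · simpa [Matrix.one_apply] using (hrow a (Sum.inr d)).1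
  have hdet : c.toBlocks₁₁.det = 1 := by
    have h1 : c.det = 1 := (det_submatrix_equiv_self _ _).trans g.2
    rwa [hblocks, det_fromBlocks_zero₂₁, det_one, mul_one] at h1
  refine ⟨⟨c.toBlocks₁₁, hdet⟩, Subtype.ext ?_⟩
  show g.1 = (fromBlocks c.toBlocks₁₁ 0 0 1).submatrix (blkEquiv hk).symm (blkEquiv hk).symm
  rw [← hblocks, hc, submatrix_submatrix]
  simp

end Frame

section Map

variable (f : R →+* S)

theorem map_transvection {a b : Fin n} (h : a ≠ b) (x : R) :
    SpecialLinearGroup.map f (SpecialLinearGroup.transvection h x) =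
      SpecialLinearGroup.transvection h (f x) := by
  refine Subtype.ext ?_
  rw [SpecialLinearGroup.map_apply_coe, SpecialLinearGroup.transvection_coe,
    SpecialLinearGroup.transvection_coe, map_add, map_one]
  simp [RingHom.mapMatrix_apply, Matrix.map_single]

theorem tvGroup_le_map (hf : Function.Surjective f) (J : Finset (Fin n)) :
    tvGroup S J ≤ (tvGroup R J).map (SpecialLinearGroup.map f) := by
  refine (Subgroup.closure_le _).2 ?_
  rintro _ ⟨a, b, h, x, ha, hb, rfl⟩
  obtain ⟨x, rfl⟩ := hf x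
  exact ⟨_, transvection_mem h x ha hb, map_transvection f h x⟩

theorem fpairMap_smul (g : SpecialLinearGroup (Fin n) R) (w : FPair R n) :
    FPair.map f (g • w) = SpecialLinearGroup.map f g • FPair.map f w := by
  refine FPair.ext' (funext fun i => ?_) (funext fun i => ?_)
  · exact RingHom.map_mulVec f g.1 w.1.1 i
  · rw [smul_fun, ← map_inv]
    exact RingHom.map_vecMul f (g⁻¹).1 w.1.2 i

theorem fpairMap_stdPair (i : Fin n) : FPair.map f (stdPair R i) = stdPair S i := by
  refine FPair.ext' (funext fun j => ?_) (funext fun j => ?_) <;>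
    simp [FPair.map, stdPair, Pi.single_apply, apply_ite f]

theorem orth_map {w w' : FPair R n} (h : Orth w w') : Orth (FPair.map f w) (FPair.map f w') := by
  unfold Orth FPair.map
  rw [← RingHom.map_dotProduct, show w.1.2 ⬝ᵥ w'.1.1 = 0 from h, map_zero]

end Map

end Vale.Agent.P067.Alld.Van
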