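import Vale.Agent.P067.Alld.Van.Frames.Basic

/-!
P067, part I-b: Euclid over `F[t]`, units of `F[t] / t^m`, and general position over `F[t]`.
-/

namespace Vale.Agent.P067.Alld.Van

open Finset Matrix Polynomial

variable {p : ℕ} [Fact p.Prime] {n m : ℕ}

/-- Degree plus one, and zero for zero. -/
noncomputable def size (f : Polynomial (ZMod p)) : ℕ :=
  haveI := Classical.dec (f = 0)
  if f = 0 then 0 else f.natDegree + 1

theorem size_eq_zero {f : Polynomial (ZMod p)} (hf : f = 0) : size f = 0 := by simp [size, hf]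

theorem size_of_ne {f : Polynomial (ZMod p)} (hf : f ≠ 0) : size f = f.natDegree + 1 := by
  simp [size, hf]

theorem size_mod_lt {f g : Polynomial (ZMod p)} (hf : f ≠ 0) (hg : g ≠ 0)
    (h : g.natDegree ≤ f.natDegree) : size (f % g) < size f := by
  rw [size_of_ne hf]
  by_cases he : f % g = 0
  · rw [size_eq_zero he]
    omega
  · rw [size_of_ne he]
    rcases Nat.eq_zero_or_pos g.natDegree with h0 | h0
    · refine absurd ?_ he
      obtain ⟨c, hc⟩ : ∃ c, g = C c := ⟨_, eq_C_of_natDegree_eq_zero h0⟩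
      have hu : IsUnit g := hc ▸ isUnit_C.2 (Ne.isUnit fun e => hg (by rw [hc, e, map_zero]))
      exact EuclideanDomain.mod_eq_zero.2 hu.dvd
    · have := natDegree_mod_lt f h0.ne'
      omega

/-- Euclid. -/
theorem red_poly : Red (Polynomial (ZMod p)) n := by
  classical
  intro J w hw
  suffices h : ∀ N, ∀ w : FPair (Polynomial (ZMod p)) n, SuppOn J w →
      ∑ a ∈ J, size (w.1.1 a) = N →
      ∃ g ∈ tvGroup (Polynomial (ZMod p)) J, ∃ i ∈ J, IsUnit ((g • w).1.1 i) from
    h _ w hw rfl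
  intro N
  induction N using Nat.strong_induction_on with
  | _ N ih =>
  intro w hw hN
  by_cases h : ∃ a ∈ J, ∃ b ∈ J, a ≠ b ∧ w.1.1 a ≠ 0 ∧ w.1.1 b ≠ 0
  · obtain ⟨a, b, ha, hb, hab, ha0, hb0, hdeg⟩ : ∃ a b, a ∈ J ∧ b ∈ J ∧ a ≠ b ∧ w.1.1 a ≠ 0 ∧
        w.1.1 b ≠ 0 ∧ (w.1.1 b).natDegree ≤ (w.1.1 a).natDegree := by
      obtain ⟨a, ha, b, hb, hab, ha0, hb0⟩ := h
      rcases le_total (w.1.1 b).natDegree (w.1.1 a).natDegree with h' | h'
      · exact ⟨a, b, ha, hb, hab, ha0, hb0, h'⟩
      · exact ⟨b, a, hb, ha, hab.symm, hb0, ha0, h'⟩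
    let e : SpecialLinearGroup (Fin n) (Polynomial (ZMod p)) :=
      SpecialLinearGroup.transvection hab (-(w.1.1 a / w.1.1 b))
    have he : e ∈ tvGroup (Polynomial (ZMod p)) J := transvection_mem hab _ ha hb
    have hval : ∀ c, (e • w).1.1 c = if c = a then w.1.1 a % w.1.1 b else w.1.1 c := fun c => by
      rw [transvection_vec]
      split_ifs with hc
      · subst hc
        linear_combination -(EuclideanDomain.div_add_mod (w.1.1 c) (w.1.1 b))
      · rw [add_zero]
    have hlt : ∑ c ∈ J, size ((e • w).1.1 c) < N := by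
      rw [← hN]
      refine sum_lt_sum (fun c _ => ?_) ⟨a, ha, ?_⟩
      · rw [hval]
        split_ifs with hc
        · subst hc
          exact (size_mod_lt ha0 hb0 hdeg).le
        · exact le_rfl
      · rw [hval, if_pos rfl]
        exact size_mod_lt ha0 hb0 hdeg
    obtain ⟨g, hg, i, hi, hu⟩ := ih _ hlt (e • w) (hw.smul (tvGroup_le_fix J he)) rfl
    exact ⟨g * e, mul_mem hg he, i, hi, by rwa [mul_smul]⟩
  · push Not at h
    have hsum := hw.sum_eq
    obtain ⟨a, ha, ha0⟩ : ∃ a ∈ J, w.1.1 a ≠ 0 := by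
      by_contra hno
      push Not at hno
      rw [sum_eq_zero fun a ha => by rw [hno a ha, mul_zero]] at hsum
      exact zero_ne_one hsum
    refine ⟨1, one_mem _, a, ha, ?_⟩
    rw [sum_eq_single a (fun c hc hca => by
      rw [h a ha c hc (Ne.symm hca) ha0, mul_zero]) (fun hn => absurd ha hn)] at hsum
    rw [one_smul]
    exact IsUnit.of_mul_eq_one_right _ hsum

theorem nontrivial_Rm (hm : 1 ≤ m) : Nontrivial (Rm p m) :=
  AdjoinRoot.nontrivial (f := (X : Polynomial (ZMod p)) ^ m) (by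
    rw [degree_X_pow]
    exact_mod_cast (show m ≠ 0 by omega))

theorem red_surjective : Function.Surjective (red p m) := AdjoinRoot.mk_surjective

theorem isUnit_red {f : Polynomial (ZMod p)} (hf : ¬ X ∣ f) : IsUnit (red p m f) := by
  obtain ⟨a, b, hab⟩ :=
    ((Polynomial.irreducible_X.coprime_iff_not_dvd).2 hf).pow_left (m := m)
  refine IsUnit.of_mul_eq_one_right (red p m b) ?_
  have h := congrArg (red p m) hab
  rw [map_add, map_mul, map_mul, map_one,
    show red p m ((X : Polynomial (ZMod p)) ^ m) = 0 from AdjoinRoot.mk_self, mul_zero, zero_add] at h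
  exact h

/-- `F[t] / t^m` is local. -/
theorem red_Rm (hm : 1 ≤ m) : Red (Rm p m) n := by
  intro J w hw
  refine ⟨1, one_mem _, ?_⟩
  simp only [one_smul]
  by_contra hno
  push Not at hno
  have hnil : ∀ a ∈ J, ∃ c, w.1.1 a = red p m X * c := fun a ha => by
    obtain ⟨f, hf⟩ := red_surjective (w.1.1 a)
    by_cases hX : X ∣ f
    · obtain ⟨c, rfl⟩ := hX
      exact ⟨red p m c, by rw [← hf, map_mul]⟩
    · exact absurd (hf ▸ isUnit_red hX) (hno a ha)
  choose! c hc using hnil
  have hsum := hw.sum_eq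
  have h1 : red p m X * ∑ a ∈ J, w.1.2 a * c a = 1 := by
    rw [mul_sum]
    refine Eq.trans ?_ hsum
    refine sum_congr rfl fun a ha => ?_
    rw [hc a ha]
    ring
  have := nontrivial_Rm (p := p) hm
  refine zero_ne_one (α := Rm p m) ?_
  calc (0 : Rm p m) = (red p m X * ∑ a ∈ J, w.1.2 a * c a) ^ m := by
        rw [mul_pow, ← map_pow, show red p m ((X : Polynomial (ZMod p)) ^ m) = 0 from AdjoinRoot.mk_self,
          zero_mul]
    _ = 1 := by rw [h1, one_pow]

section GenPos

variable {ι : Type} [Fintype ι]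

/-- A pair orthogonal on both sides to fewer than `n / 2` given vectors and functionals. -/
theorem exists_pair_orth (V W : ι → Fin n → Polynomial (ZMod p))
    (h : 2 * Fintype.card ι < n) :
    ∃ w : FPair (Polynomial (ZMod p)) n, ∀ x, w.1.2 ⬝ᵥ V x = 0 ∧ W x ⬝ᵥ w.1.1 = 0 := by
  classical
  let A := Polynomial (ZMod p)
  let L : (Fin n → A) →ₗ[A] ι → A := Matrix.mulVecLin (Matrix.of W)
  let M := LinearMap.ker L
  let Q := LinearMap.range L
  obtain ⟨σ, hσ⟩ := Module.projective_lifting_property L.rangeRestrict (LinearMap.id : Q →ₗ[A] Q)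
    L.surjective_rangeRestrict
  have hσ' : ∀ q : Q, L (σ q) = q.1 := fun q => congrArg Subtype.val (LinearMap.congr_fun hσ q)
  let π : (Fin n → A) →ₗ[A] M :=
    (LinearMap.id - σ.comp L.rangeRestrict).codRestrict M fun v => by
      show L (v - σ (L.rangeRestrict v)) = 0
      rw [map_sub, hσ', LinearMap.codRestrict_apply, sub_self]
  have hπ : ∀ v : M, π v.1 = v := fun v => Subtype.ext (by
    show v.1 - σ (L.rangeRestrict v.1) = v.1
    have : L.rangeRestrict v.1 = 0 := Subtype.ext v.2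
    rw [this, map_zero, sub_zero])
  have hM : n ≤ Module.finrank A M + Fintype.card ι := by
    have h1 := Submodule.finrank_quotient_add_finrank M
    rw [LinearEquiv.finrank_eq L.quotKerEquivRange, Module.finrank_pi] at h1
    have h2 := Submodule.finrank_le (LinearMap.range L)
    rw [Module.finrank_pi] at h2
    rw [Fintype.card_fin] at h1
    omega
  let T : Module.Dual A M →ₗ[A] ι → A := LinearMap.pi fun x => Module.Dual.eval A M (π (V x))
  have hT : ¬ Function.Injective T := fun hinj => by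
    have h1 := LinearMap.finrank_le_finrank_of_injective hinj
    rw [← (Module.Free.chooseBasis A M).toDualEquiv.finrank_eq, Module.finrank_pi] at h1
    omega
  obtain ⟨ψ₀, hψ₀, hne⟩ := Submodule.exists_mem_ne_zero_of_ne_bot
    (p := LinearMap.ker T) (fun e => hT (LinearMap.ker_eq_bot.1 e))
  obtain ⟨d, hd⟩ := (inferInstance : (LinearMap.range ψ₀).IsPrincipal).principal
  have hd0 : d ≠ 0 := fun e => hne (LinearMap.range_eq_bot.1 (by rw [hd, e]; simp))
  have hmem : ∀ v, ψ₀ v ∈ Submodule.span A {d} := fun v => hd ▸ LinearMap.mem_range_self ψ₀ v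
  let ψ : M →ₗ[A] A := (LinearEquiv.toSpanNonzeroSingleton A A d hd0).symm.toLinearMap.comp
    (ψ₀.codRestrict _ hmem)
  have hψ : ∀ v, ψ v * d = ψ₀ v := fun v => by
    have := congrArg Subtype.val ((LinearEquiv.toSpanNonzeroSingleton A A d hd0).apply_symm_apply
      ⟨ψ₀ v, hmem v⟩)
    exact this
  obtain ⟨v₀, hv₀⟩ := LinearMap.mem_range.1 (hd.symm ▸ Submodule.mem_span_singleton_self d :
    d ∈ LinearMap.range ψ₀)
  have hone : ψ v₀ = 1 := mul_right_cancel₀ hd0 (by rw [hψ, hv₀, one_mul])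
  let φ : Fin n → A := fun i => ψ (π (Pi.single i 1))
  have hφ : ∀ v : Fin n → A, φ ⬝ᵥ v = ψ (π v) := fun v => by
    have h := LinearMap.pi_apply_eq_sum_univ (ψ.comp π) v
    rw [LinearMap.comp_apply] at h
    rw [h, dotProduct]
    refine sum_congr rfl fun i _ => ?_
    rw [smul_eq_mul, mul_comm, LinearMap.comp_apply,
      show (fun j : Fin n => if i = j then (1 : A) else 0) = Pi.single i 1 from funext fun j => by
        simp [Pi.single_apply, eq_comm]]
  refine ⟨⟨(v₀.1, φ), by rw [hφ, hπ, hone]⟩, fun x => ⟨?_, ?_⟩⟩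
  · show φ ⬝ᵥ V x = 0
    rw [hφ]
    refine mul_right_cancel₀ hd0 ?_
    rw [hψ, zero_mul]
    exact congrFun hψ₀ x
  · exact congrFun v₀.2 x

end GenPos

end Vale.Agent.P067.Alld.Van
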